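import Vale.Agent.P305.OddDefs

/-! Induced matchings of edges meeting a vertex set. -/

set_option autoImplicit false

namespace Vale.Agent.P305.H287

open Vale.Agent.P305

/-- `a i - b i` (`i < k`) are edges with `a i ∈ X`, no two of which have a common endpoint or are
joined by an edge. -/
def IsInducedMatchingAt {n : ℕ} (G : SimpleGraph (Fin n)) (X : Set (Fin n)) (k : ℕ)
    (a b : Fin k → Fin n) : Prop :=
  (∀ i, a i ∈ X ∧ G.Adj (a i) (b i)) ∧
  ∀ i j, i ≠ j → ∀ u ∈ ({a i, b i} : Set (Fin n)), ∀ v ∈ ({a j, b j} : Set (Fin n)),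
    u ≠ v ∧ ¬ G.Adj u v

/-- The largest number of edges of an induced matching of `G` all of whose edges have an endpoint
in `X`. For `X = univ` this is the induced matching number of `G`. -/
noncomputable def inducedMatchingAt {n : ℕ} (G : SimpleGraph (Fin n)) (X : Set (Fin n)) : ℕ :=
  sSup {k | ∃ a b : Fin k → Fin n, IsInducedMatchingAt G X k a b}

end Vale.Agent.P305.H287
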