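import Vale.Agent.P305.OddDefs
import Vale.Agent.P305.H287.Defs
import Mathlib.Combinatorics.SimpleGraph.Clique

/-! The odd packing number and induced matchings. -/

set_option autoImplicit false

namespace Vale.Agent.P305.H287

open Vale.Agent.P305

theorem IsInducedMatchingAt.card_le {n : ℕ} {G : SimpleGraph (Fin n)} {X : Set (Fin n)} {k : ℕ}
    {a b : Fin k → Fin n} (h : IsInducedMatchingAt G X k a b) :
    k ≤ (G.induce X).indepNum := by
  classical
  have := Fintype.ofFinite X
  let f : Fin k → X := fun i => ⟨a i, (h.1 i).1⟩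
  have hinj : Function.Injective f := by
    intro i j hij
    by_contra hne
    exact (h.2 i j hne (a i) (by simp) (a j) (by simp)).1 (congrArg Subtype.val hij)
  have hI : (G.induce X).IsIndepSet ((Finset.univ.image f : Finset X) : Set X) := by
    intro u hu v hv huv
    simp only [Finset.coe_image, Finset.coe_univ, Set.image_univ, Set.mem_range] at hu hv
    obtain ⟨i, rfl⟩ := hu
    obtain ⟨j, rfl⟩ := hv
    intro hadj
    exact (h.2 i j (fun h => huv (congrArg f h)) (a i) (by simp) (a j) (by simp)).2 hadj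
  have h1 := hI.card_le_indepNum
  rwa [Finset.card_image_of_injective _ hinj, Finset.card_univ, Fintype.card_fin] at h1

theorem inducedMatchingAt_bdd {n : ℕ} (G : SimpleGraph (Fin n)) (X : Set (Fin n)) :
    BddAbove {k | ∃ a b : Fin k → Fin n, IsInducedMatchingAt G X k a b} :=
  ⟨(G.induce X).indepNum, fun _ ⟨_, _, h⟩ => h.card_le⟩

theorem IsInducedMatchingAt.le {n : ℕ} {G : SimpleGraph (Fin n)} {X : Set (Fin n)} {k : ℕ}
    {a b : Fin k → Fin n} (h : IsInducedMatchingAt G X k a b) : k ≤ inducedMatchingAt G X :=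
  le_csSup (inducedMatchingAt_bdd G X) ⟨a, b, h⟩

/-- An induced matching of edges meeting `X` gives an independent set inside `X`. -/
theorem inducedMatchingAt_le_indepNum {n : ℕ} (G : SimpleGraph (Fin n)) (X : Set (Fin n)) :
    inducedMatchingAt G X ≤ (G.induce X).indepNum :=
  csSup_le ⟨0, fun i => i.elim0, fun i => i.elim0, fun i => i.elim0, fun i => i.elim0⟩
    fun _ ⟨_, _, h⟩ => h.card_le

theorem inducedMatchingAt_mono {n : ℕ} (G : SimpleGraph (Fin n)) {X Y : Set (Fin n)}
    (h : X ⊆ Y) : inducedMatchingAt G X ≤ inducedMatchingAt G Y :=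
  csSup_le ⟨0, fun i => i.elim0, fun i => i.elim0, fun i => i.elim0, fun i => i.elim0⟩
    fun _ ⟨a, b, hab⟩ => IsInducedMatchingAt.le (a := a) (b := b)
      ⟨fun i => ⟨h (hab.1 i).1, (hab.1 i).2⟩, hab.2⟩

/-- If no edge inside `S` meets `X` and `S \ X` induces a bipartite graph, so does `S`. -/
theorem bip_of_no_edge {n : ℕ} (G : SimpleGraph (Fin n)) (X S : Set (Fin n))
    (hno : ∀ u ∈ S, ∀ v ∈ S, u ∈ X → ¬ G.Adj u v)
    (hb : (G.induce (S \ X)).IsBipartite) : (G.induce S).IsBipartite := by
  classical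
  obtain ⟨col⟩ := hb
  refine ⟨SimpleGraph.Coloring.mk
    (fun v => if h : v.1 ∈ X then (0 : Fin 2) else col ⟨v.1, v.2, h⟩) ?_⟩
  intro u v huv
  have hadj : G.Adj u.1 v.1 := huv
  have hu : u.1 ∉ X := fun h => hno u.1 u.2 v.1 v.2 h hadj
  have hv : v.1 ∉ X := fun h => hno v.1 v.2 u.1 u.2 h hadj.symm
  simp only [dif_neg hu, dif_neg hv]
  exact col.valid (by simpa using hadj)

/-- **General bound.** If every odd packing of `G` avoiding `X` has at most `c` members, then the
odd packing number of `G` is at most `c` plus the largest size of an induced matching of edges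
meeting `X`. -/
theorem oddPacking_le_inducedMatchingAt_add {n : ℕ} (G : SimpleGraph (Fin n))
    (X : Set (Fin n)) (c : ℕ)
    (hc : ∀ (k : ℕ) (S : Fin k → Set (Fin n)), IsOddPacking G k S → (∀ i, S i ⊆ Xᶜ) → k ≤ c) :
    oddPacking G ≤ inducedMatchingAt G X + c := by
  classical
  refine csSup_le ⟨0, fun i => i.elim0, fun i => i.elim0, fun i => i.elim0⟩ ?_
  rintro k ⟨S, hS⟩
  let A : Finset (Fin k) :=
    Finset.univ.filter fun i => ∃ u ∈ S i, ∃ v ∈ S i, u ∈ X ∧ G.Adj u v
  have hA : A.card ≤ inducedMatchingAt G X := by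
    have h1 : ∀ i : A, ∃ u ∈ S i, ∃ v ∈ S i, u ∈ X ∧ G.Adj u v := by
      rintro ⟨i, hi⟩
      exact (Finset.mem_filter.1 hi).2
    choose f hf g hg hfg using h1
    let e := A.equivFin
    refine IsInducedMatchingAt.le (a := fun i => f (e.symm i)) (b := fun i => g (e.symm i))
      ⟨fun i => hfg _, fun i j hij u hu v hv => ?_⟩
    have hne : ((e.symm i : A) : Fin k) ≠ (e.symm j : A) :=
      fun h => hij (e.symm.injective (Subtype.ext h))
    have hu' : u ∈ S (e.symm i) := by
      rcases hu with rfl | hu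
      · exact hf _
      · rw [Set.mem_singleton_iff] at hu
        subst hu
        exact hg _
    have hv' : v ∈ S (e.symm j) := by
      rcases hv with rfl | hv
      · exact hf _
      · rw [Set.mem_singleton_iff] at hv
        subst hv
        exact hg _
    exact hS.2 _ _ hne u hu' v hv'
  have hB : Aᶜ.card ≤ c := by
    let e := (Aᶜ).equivFin
    refine hc Aᶜ.card (fun i => S (e.symm i) \ X) ⟨fun i hbip => ?_, fun i j hij u hu v hv => ?_⟩
      (fun i v hv => hv.2)
    · have h2 := (e.symm i).2
      rw [Finset.mem_compl] at h2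
      refine hS.1 (e.symm i) (bip_of_no_edge G X _ ?_ hbip)
      intro u hu v hv hx hadj
      exact h2 (Finset.mem_filter.2 ⟨Finset.mem_univ _, u, hu, v, hv, hx, hadj⟩)
    · exact hS.2 _ _ (fun h => hij (e.symm.injective (Subtype.ext h))) u hu.1 v hv.1
  have hcard := Finset.card_add_card_compl A
  rw [Fintype.card_fin] at hcard
  omega

/-- The odd packing number is at most the induced matching number. -/
theorem oddPacking_le_inducedMatching {n : ℕ} (G : SimpleGraph (Fin n)) :
    oddPacking G ≤ inducedMatchingAt G Set.univ := by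
  refine oddPacking_le_inducedMatchingAt_add G Set.univ 0 fun k S hS hs => ?_
  by_contra hk
  apply hS.1 ⟨0, by omega⟩
  have hE : IsEmpty (S ⟨0, by omega⟩) := ⟨fun v => (hs _ v.2) (Set.mem_univ _)⟩
  exact ⟨SimpleGraph.Coloring.mk (fun _ => (0 : Fin 2)) (fun {v} => isEmptyElim v)⟩

/-- If deleting `X` leaves a bipartite graph, the odd packing number is at most the largest size of
an induced matching all of whose edges meet `X`. -/
theorem oddPacking_le_inducedMatchingAt {n : ℕ} (G : SimpleGraph (Fin n)) (X : Set (Fin n))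
    (hX : (G.induce Xᶜ).IsBipartite) : oddPacking G ≤ inducedMatchingAt G X := by
  refine oddPacking_le_inducedMatchingAt_add G X 0 fun k S hS hs => ?_
  by_contra hk
  apply hS.1 ⟨0, by omega⟩
  obtain ⟨col⟩ := hX
  exact ⟨SimpleGraph.Coloring.mk (fun v => col ⟨v.1, hs _ v.2⟩)
    (fun {u v} huv => col.valid (by simpa using huv))⟩

end Vale.Agent.P305.H287
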