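import Vale.Agent.P305.H529.Main
import Vale.Agent.P305.H287.InducedMatching

/-! Vertex deletions, the induced matching number, and almost-linear time. -/

set_option autoImplicit false

namespace Vale.Agent.P305.H287

open Vale.Agent.P305 Vale.Agent.P305.H529

/-- If deleting `X` leaves the complement of a disk graph, the odd packing number is at most one
plus the largest size of an induced matching all of whose edges meet `X`. -/
theorem oddPacking_le_inducedMatchingAt_codisk {n : ℕ} (G : SimpleGraph (Fin n))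
    (X : Set (Fin n)) (hX : IsCoDisk (G.induce Xᶜ)) :
    oddPacking G ≤ inducedMatchingAt G X + 1 := by
  classical
  refine oddPacking_le_inducedMatchingAt_add G X 1 fun k S hS hs => ?_
  by_contra hk
  have h01 : (⟨0, by omega⟩ : Fin k) ≠ ⟨1, by omega⟩ := by simp
  have : Fintype ↑Xᶜ := Fintype.ofFinite _
  refine codisk_pair (G.induce Xᶜ) hX {v : ↑Xᶜ | (v : Fin n) ∈ S ⟨0, by omega⟩}
    {v : ↑Xᶜ | (v : Fin n) ∈ S ⟨1, by omega⟩} ?_
    (fun h => hS.1 ⟨0, by omega⟩ (bip_transfer G X _ (hs _) h))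
    (fun h => hS.1 ⟨1, by omega⟩ (bip_transfer G X _ (hs _) h))
  intro u hu v hv
  have := hS.2 _ _ h01 u hu v hv
  exact ⟨fun h => this.1 (congrArg Subtype.val h), fun h => this.2 h⟩

/-- Almost-linear time for all graphs with a vertex set `X` such that every induced matching of
edges meeting `X` has subpolynomial size and deleting `X` leaves a bipartite graph or the
complement of a disk graph. (`X = univ`: subpolynomial induced matching number.) -/
theorem near_inducedMatching_almostLinear (hB : AlmostLinear fun _ G => G.IsBipartite)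
    (κ : ℕ → ℕ)
    (hκ : ∀ ε : ℝ, 0 < ε → ∃ c : ℝ, ∀ N : ℕ, (κ N : ℝ) ≤ c * ((N : ℝ) + 1) ^ ε) :
    AlmostLinear fun n G => ∃ X : Set (Fin n), inducedMatchingAt G X ≤ κ (n + G.edgeSet.ncard) ∧
      ((G.induce Xᶜ).IsBipartite ∨ IsCoDisk (G.induce Xᶜ)) := by
  obtain ⟨P, T, hP, hT⟩ := odd_almostLinear hB (fun N => κ N + 1) (by
    intro ε hε
    obtain ⟨c, hc⟩ := hκ ε hε
    refine ⟨c + 1, fun N => ?_⟩
    have h1 : (1 : ℝ) ≤ ((N : ℝ) + 1) ^ ε :=
      Real.one_le_rpow (by linarith [(Nat.cast_nonneg N : (0 : ℝ) ≤ N)]) hε.le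
    push_cast
    rw [add_mul, one_mul]
    exact add_le_add (hc N) h1)
  refine ⟨P, T, hP.mono ?_ fun _ _ _ => le_rfl, hT⟩
  rintro n G ⟨X, hX, h | h⟩
  · exact (oddPacking_le_inducedMatchingAt G X h).trans (hX.trans (Nat.le_succ _))
  · exact (oddPacking_le_inducedMatchingAt_codisk G X h).trans (Nat.succ_le_succ hX)

end Vale.Agent.P305.H287
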